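import Vale.Agent.Lib.P249.helper68.GridDefs

/-!
# P249, grid argument, job G2: linearization of a box average

Second differences of the box average of an `L`-Lipschitz function are at most `2 L / w`
(telescoping in one coordinate of the box), hence the error of the linearization at `z`
is at most `(2 L / w) * |v|_1 ^ 2`.
-/

namespace Vale.Agent.Lib.P249.H68

open Finset

/-- The sum of `F` over the translates of `y` by the box `{0,…,w-1}^k`. -/
noncomputable def h71_boxSum (k w : ℕ) (F : (Fin k → ℤ) → ℝ) (y : Fin k → ℤ) : ℝ :=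
  ∑ u : Fin k → Fin w, F (fun i => y i + ((u i : ℕ) : ℤ))

theorem h71_boxAvg_eq (k w : ℕ) (G : (Fin k → ℤ) → ℝ) (y : Fin k → ℤ) :
    boxAvg k w G y = h71_boxSum k w G y / (w : ℝ) ^ k := rfl

/-- Shifting the base point by a unit vector changes a box sum of a function bounded by `B`
by at most two slabs: `|S(y + e_j) - S(y)| * w ≤ 2 B w ^ k`. -/
theorem h71_slab {k : ℕ} (w : ℕ) (F : (Fin k → ℤ) → ℝ) (B : ℝ) (hF : ∀ x, |F x| ≤ B)
    (y : Fin k → ℤ) (j : Fin k) :
    |h71_boxSum k w F (y + Pi.single j 1) - h71_boxSum k w F y| * (w : ℝ)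
      ≤ 2 * B * (w : ℝ) ^ k := by
  classical
  -- the point with `j`-th coordinate `y j + τ` and the other coordinates `y i + u' i`
  let P : ℤ → ({i : Fin k // i ≠ j} → Fin w) → (Fin k → ℤ) :=
    fun τ u' i => y i + (if h : i = j then τ else (((u' ⟨i, h⟩ : Fin w) : ℕ) : ℤ))
  let e := Equiv.funSplitAt j (Fin w)
  have key : ∀ Φ : (Fin k → Fin w) → ℝ,
      ∑ u, Φ u = ∑ u' : {i : Fin k // i ≠ j} → Fin w, ∑ t : Fin w, Φ (e.symm (t, u')) := by
    intro Φ
    rw [← Fintype.sum_prod_type_right
      (f := fun p : Fin w × ({i : Fin k // i ≠ j} → Fin w) => Φ (e.symm p))]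
    exact (Equiv.sum_comp e.symm Φ).symm
  have h1 : h71_boxSum k w F y
      = ∑ u' : {i : Fin k // i ≠ j} → Fin w, ∑ t : Fin w, F (P ((t : ℕ) : ℤ) u') := by
    unfold h71_boxSum
    rw [key]
    refine Finset.sum_congr rfl fun u' _ => Finset.sum_congr rfl fun t _ => ?_
    congr 1
    funext i
    by_cases h : i = j
    · simp [P, e, Equiv.funSplitAt_symm_apply, h]
    · simp [P, e, Equiv.funSplitAt_symm_apply, h]
  have h2 : h71_boxSum k w F (y + Pi.single j 1)
      = ∑ u' : {i : Fin k // i ≠ j} → Fin w, ∑ t : Fin w, F (P (((t : ℕ) + 1 : ℕ) : ℤ) u') := by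
    unfold h71_boxSum
    rw [key]
    refine Finset.sum_congr rfl fun u' _ => Finset.sum_congr rfl fun t _ => ?_
    congr 1
    funext i
    by_cases h : i = j
    · subst h
      simp [P, e, Equiv.funSplitAt_symm_apply]
      ring
    · simp [P, e, Equiv.funSplitAt_symm_apply, h]
  have h3 : h71_boxSum k w F (y + Pi.single j 1) - h71_boxSum k w F y
      = ∑ u' : {i : Fin k // i ≠ j} → Fin w, (F (P (w : ℤ) u') - F (P 0 u')) := by
    rw [h1, h2, ← Finset.sum_sub_distrib]
    refine Finset.sum_congr rfl fun u' _ => ?_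
    rw [← Finset.sum_sub_distrib]
    have hr := Fin.sum_univ_eq_sum_range
      (fun τ : ℕ => F (P ((τ + 1 : ℕ) : ℤ) u') - F (P (τ : ℤ) u')) w
    rw [hr, Finset.sum_range_sub (fun τ : ℕ => F (P (τ : ℤ) u')) w]
    simp
  have hcard : (Fintype.card ({i : Fin k // i ≠ j} → Fin w) : ℝ) * (w : ℝ) = (w : ℝ) ^ k := by
    have hc := Fintype.card_congr e
    rw [Fintype.card_prod, Fintype.card_fun, Fintype.card_fin, Fintype.card_fin] at hc
    have hc' : ((w ^ k : ℕ) : ℝ)
        = ((w * Fintype.card ({i : Fin k // i ≠ j} → Fin w) : ℕ) : ℝ) := by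
      rw [hc]
    push_cast at hc'
    rw [hc']
    ring
  have h4 : |h71_boxSum k w F (y + Pi.single j 1) - h71_boxSum k w F y|
      ≤ (Fintype.card ({i : Fin k // i ≠ j} → Fin w) : ℝ) * (2 * B) := by
    rw [h3]
    calc |∑ u' : {i : Fin k // i ≠ j} → Fin w, (F (P (w : ℤ) u') - F (P 0 u'))|
        ≤ ∑ u' : {i : Fin k // i ≠ j} → Fin w, |F (P (w : ℤ) u') - F (P 0 u')| :=
          Finset.abs_sum_le_sum_abs _ _
      _ ≤ ∑ _u' : {i : Fin k // i ≠ j} → Fin w, 2 * B := by
          refine Finset.sum_le_sum fun u' _ => ?_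
          have ha := hF (P (w : ℤ) u')
          have hb := hF (P 0 u')
          have hc := abs_sub (F (P (w : ℤ) u')) (F (P 0 u'))
          linarith
      _ = (Fintype.card ({i : Fin k // i ≠ j} → Fin w) : ℝ) * (2 * B) := by
          rw [Finset.sum_const, Finset.card_univ, nsmul_eq_mul]
  calc |h71_boxSum k w F (y + Pi.single j 1) - h71_boxSum k w F y| * (w : ℝ)
      ≤ (Fintype.card ({i : Fin k // i ≠ j} → Fin w) : ℝ) * (2 * B) * (w : ℝ) :=
        mul_le_mul_of_nonneg_right h4 (Nat.cast_nonneg w)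
    _ = 2 * B * ((Fintype.card ({i : Fin k // i ≠ j} → Fin w) : ℝ) * (w : ℝ)) := by ring
    _ = 2 * B * (w : ℝ) ^ k := by rw [hcard]

theorem h71_sqDist_single {k : ℕ} (x : Fin k → ℤ) (i : Fin k) :
    sqDist (x + Pi.single i 1) x = 1 := by
  classical
  unfold sqDist
  have h : ∀ l : Fin k, ((((x + Pi.single i 1 : Fin k → ℤ) l : ℤ) : ℝ) - (x l : ℝ)) ^ 2
      = if l = i then 1 else 0 := by
    intro l
    by_cases hl : l = i
    · subst hl
      simp
    · simp [hl]
  simp only [h]
  simp

/-- The unit difference of a Lipschitz function is bounded by `L`. -/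
theorem h71_unit_diff {k : ℕ} (G : (Fin k → ℤ) → ℝ) (L : ℝ) (hG : LipZ G L)
    (i : Fin k) (x : Fin k → ℤ) : |G (x + Pi.single i 1) - G x| ≤ L := by
  have h := hG (x + Pi.single i 1) x
  rw [h71_sqDist_single, Real.sqrt_one, mul_one] at h
  exact h

/-- The unit difference of a box sum is the box sum of the unit difference. -/
theorem h71_boxSum_sub {k : ℕ} (w : ℕ) (G : (Fin k → ℤ) → ℝ) (i : Fin k) (y : Fin k → ℤ) :
    h71_boxSum k w G (y + Pi.single i 1) - h71_boxSum k w G y
      = h71_boxSum k w (fun x => G (x + Pi.single i 1) - G x) y := by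
  unfold h71_boxSum
  rw [← Finset.sum_sub_distrib]
  refine Finset.sum_congr rfl fun u _ => ?_
  congr 2
  funext l
  simp only [Pi.add_apply]
  ring

/-- (S3) second differences of the box average are at most `2 L / w`. -/
theorem h71_second_diff {k : ℕ} (w : ℕ) (hw : 0 < w) (G : (Fin k → ℤ) → ℝ) (L : ℝ)
    (hG : LipZ G L) (y : Fin k → ℤ) (i j : Fin k) :
    |(boxAvg k w G (y + Pi.single j 1 + Pi.single i 1) - boxAvg k w G (y + Pi.single j 1))
        - (boxAvg k w G (y + Pi.single i 1) - boxAvg k w G y)| ≤ 2 * L / w := by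
  have hw' : (0 : ℝ) < (w : ℝ) := by exact_mod_cast hw
  have hwk : (0 : ℝ) < (w : ℝ) ^ k := pow_pos hw' k
  have hs := h71_slab w (fun x => G (x + Pi.single i 1) - G x) L
    (fun x => h71_unit_diff G L hG i x) y j
  have e : (boxAvg k w G (y + Pi.single j 1 + Pi.single i 1) - boxAvg k w G (y + Pi.single j 1))
        - (boxAvg k w G (y + Pi.single i 1) - boxAvg k w G y)
      = (h71_boxSum k w (fun x => G (x + Pi.single i 1) - G x) (y + Pi.single j 1)
          - h71_boxSum k w (fun x => G (x + Pi.single i 1) - G x) y) / (w : ℝ) ^ k := by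
    rw [← h71_boxSum_sub, ← h71_boxSum_sub]
    simp only [h71_boxAvg_eq]
    ring
  rw [e, abs_div, abs_of_pos hwk, div_le_div_iff₀ hwk hw']
  exact hs

/-- The `l_1` norm of an integer vector. -/
noncomputable def h71_N {k : ℕ} (v : Fin k → ℤ) : ℝ := ∑ i, |(v i : ℝ)|

theorem h71_N_nonneg {k : ℕ} (v : Fin k → ℤ) : 0 ≤ h71_N v :=
  Finset.sum_nonneg fun _ _ => abs_nonneg _

theorem h71_N_sub_single {k : ℕ} (v : Fin k → ℤ) (j : Fin k) (hpos : 0 < v j) :
    h71_N (v - Pi.single j 1) = h71_N v - 1 := by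
  classical
  unfold h71_N
  have h : ∑ i, (|(v i : ℝ)| - |(((v - Pi.single j 1 : Fin k → ℤ) i : ℤ) : ℝ)|) = 1 := by
    rw [Finset.sum_eq_single j]
    · have h1 : (1 : ℝ) ≤ (v j : ℝ) := by exact_mod_cast hpos
      simp only [Pi.sub_apply, Pi.single_eq_same]
      push_cast
      rw [abs_of_nonneg (by linarith), abs_of_nonneg (by linarith)]
      ring
    · intro b _ hb
      simp [Pi.single_eq_of_ne hb]
    · intro hj
      exact absurd (Finset.mem_univ j) hj
  rw [Finset.sum_sub_distrib] at h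
  linarith

theorem h71_N_add_single {k : ℕ} (v : Fin k → ℤ) (j : Fin k) (hneg : v j < 0) :
    h71_N (v + Pi.single j 1) = h71_N v - 1 := by
  classical
  unfold h71_N
  have h : ∑ i, (|(v i : ℝ)| - |(((v + Pi.single j 1 : Fin k → ℤ) i : ℤ) : ℝ)|) = 1 := by
    rw [Finset.sum_eq_single j]
    · have h0 : v j + 1 ≤ 0 := by omega
      have h1 : (v j : ℝ) + 1 ≤ 0 := by exact_mod_cast h0
      simp only [Pi.add_apply, Pi.single_eq_same]
      push_cast
      rw [abs_of_nonpos (by linarith), abs_of_nonpos (by linarith)]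
      ring
    · intro b _ hb
      simp [Pi.single_eq_of_ne hb]
    · intro hj
      exact absurd (Finset.mem_univ j) hj
  rw [Finset.sum_sub_distrib] at h
  linarith

/-- Induction along lattice paths: a function whose unit increments between points of
`l_1` norm at most `n + 1` are bounded by `b (n + 1) - b n` moves by at most `b n` on the
`l_1` ball of radius `n`. -/
theorem h71_path {k : ℕ} (f : (Fin k → ℤ) → ℝ) (b : ℕ → ℝ) (hb : ∀ n, 0 ≤ b n)
    (hstep : ∀ (n : ℕ) (v : Fin k → ℤ) (j : Fin k), h71_N v ≤ (n : ℝ) + 1 →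
      h71_N (v + Pi.single j 1) ≤ (n : ℝ) + 1 →
      |f (v + Pi.single j 1) - f v| ≤ b (n + 1) - b n) :
    ∀ (n : ℕ) (v : Fin k → ℤ), h71_N v ≤ (n : ℝ) → |f v - f 0| ≤ b n := by
  intro n
  induction n with
  | zero =>
    intro v hv
    by_cases h0 : v = 0
    · subst h0
      simpa using hb 0
    · exfalso
      obtain ⟨j, hj⟩ := Function.ne_iff.mp h0
      have hj' : v j ≠ 0 := by simpa using hj
      have hv' : h71_N v ≤ 0 := by simpa using hv
      rcases lt_or_gt_of_ne hj' with hneg | hpos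
      · have h1 := h71_N_add_single v j hneg
        have h2 := h71_N_nonneg (v + Pi.single j 1)
        linarith
      · have h1 := h71_N_sub_single v j hpos
        have h2 := h71_N_nonneg (v - Pi.single j 1)
        linarith
  | succ n ih =>
    intro v hv
    have hv' : h71_N v ≤ (n : ℝ) + 1 := by
      have e : ((n + 1 : ℕ) : ℝ) = (n : ℝ) + 1 := by push_cast; ring
      rw [e] at hv
      exact hv
    by_cases h0 : v = 0
    · subst h0
      simpa using hb (n + 1)
    · obtain ⟨j, hj⟩ := Function.ne_iff.mp h0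
      have hj' : v j ≠ 0 := by simpa using hj
      rcases lt_or_gt_of_ne hj' with hneg | hpos
      · have h1 := h71_N_add_single v j hneg
        have h2 := ih (v + Pi.single j 1) (by linarith)
        have h3 := hstep n v j hv' (by linarith)
        have h4 := abs_sub_le (f v) (f (v + Pi.single j 1)) (f 0)
        rw [abs_sub_comm] at h3
        linarith
      · have h1 := h71_N_sub_single v j hpos
        have h2 := ih (v - Pi.single j 1) (by linarith)
        have h3 := hstep n (v - Pi.single j 1) j (by linarith)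
          (by rw [sub_add_cancel]; exact hv')
        rw [sub_add_cancel] at h3
        have h4 := abs_sub_le (f v) (f (v - Pi.single j 1)) (f 0)
        linarith

theorem boxAvg_linear {k : ℕ} (w : ℕ) (hw : 0 < w) (G : (Fin k → ℤ) → ℝ) (L : ℝ) (hL : 0 ≤ L)
    (hG : LipZ G L) (z v : Fin k → ℤ) :
    |boxAvg k w G (z + v) - boxAvg k w G z
        - ∑ i, (v i : ℝ) * (boxAvg k w G (z + Pi.single i 1) - boxAvg k w G z)|
      ≤ 2 * L / w * (∑ i, |(v i : ℝ)|) ^ 2 := by
  classical
  have hw' : (0 : ℝ) < (w : ℝ) := by exact_mod_cast hw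
  have hc0 : 0 ≤ 2 * L / (w : ℝ) := by positivity
  generalize hc : 2 * L / (w : ℝ) = c at hc0
  have hS3 : ∀ (y : Fin k → ℤ) (i j : Fin k),
      |(boxAvg k w G (y + Pi.single j 1 + Pi.single i 1) - boxAvg k w G (y + Pi.single j 1))
        - (boxAvg k w G (y + Pi.single i 1) - boxAvg k w G y)| ≤ c := by
    intro y i j
    rw [← hc]
    exact h71_second_diff w hw G L hG y i j
  generalize boxAvg k w G = H at hS3 ⊢
  -- (S4)
  have hS4 : ∀ (i : Fin k) (n : ℕ) (u : Fin k → ℤ), h71_N u ≤ (n : ℝ) →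
      |(H (z + u + Pi.single i 1) - H (z + u)) - (H (z + Pi.single i 1) - H z)| ≤ c * n := by
    intro i n u hu
    have hp := h71_path (fun u => H (z + u + Pi.single i 1) - H (z + u)) (fun n => c * (n : ℝ))
      (fun n => mul_nonneg hc0 (Nat.cast_nonneg n))
      (by
        intro n u j _ _
        have h := hS3 (z + u) i j
        have e : z + (u + Pi.single j 1) = z + u + Pi.single j 1 := by rw [add_assoc]
        simp only [e]
        push_cast
        linarith)
      n u hu
    simpa using hp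
  -- (S5)
  have hS5 := h71_path (fun u => H (z + u) - ∑ i, (u i : ℝ) * (H (z + Pi.single i 1) - H z))
    (fun n => c * (n : ℝ) ^ 2) (fun n => mul_nonneg hc0 (sq_nonneg _))
    (by
      intro n u j hu _
      have h := hS4 j (n + 1) u (by push_cast; exact hu)
      have hsum : ∑ i, (((u + Pi.single j 1 : Fin k → ℤ) i : ℤ) : ℝ) * (H (z + Pi.single i 1) - H z)
          = ∑ i, (u i : ℝ) * (H (z + Pi.single i 1) - H z) + (H (z + Pi.single j 1) - H z) := by
        have ht : ∀ i : Fin k, (((u + Pi.single j 1 : Fin k → ℤ) i : ℤ) : ℝ) * (H (z + Pi.single i 1) - H z)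
            = (u i : ℝ) * (H (z + Pi.single i 1) - H z)
              + (if i = j then (H (z + Pi.single i 1) - H z) else 0) := by
          intro i
          by_cases hi : i = j
          · subst hi
            simp
            ring
          · simp [hi]
        simp only [ht, Finset.sum_add_distrib, Finset.sum_ite_eq', Finset.mem_univ, if_true]
      have e : z + (u + Pi.single j 1) = z + u + Pi.single j 1 := by rw [add_assoc]
      simp only [e, hsum]
      have hn0 : (0 : ℝ) ≤ (n : ℝ) := Nat.cast_nonneg n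
      have e2 : H (z + u + Pi.single j 1)
          - (∑ i, (u i : ℝ) * (H (z + Pi.single i 1) - H z) + (H (z + Pi.single j 1) - H z))
          - (H (z + u) - ∑ i, (u i : ℝ) * (H (z + Pi.single i 1) - H z))
          = (H (z + u + Pi.single j 1) - H (z + u)) - (H (z + Pi.single j 1) - H z) := by ring
      rw [e2]
      push_cast at h ⊢
      nlinarith [mul_nonneg hc0 hn0])
  -- conclusion
  have hN : h71_N v = ((∑ i, (v i).natAbs : ℕ) : ℝ) := by
    unfold h71_N
    push_cast
    refine Finset.sum_congr rfl fun i _ => ?_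
    rw [Nat.cast_natAbs, Int.cast_abs]
  have hfin := hS5 (∑ i, (v i).natAbs) v (le_of_eq hN)
  have e3 : (∑ i, |(v i : ℝ)|) = ((∑ i, (v i).natAbs : ℕ) : ℝ) := hN
  rw [e3]
  have e4 : H (z + v) - H z - ∑ i, (v i : ℝ) * (H (z + Pi.single i 1) - H z)
      = (H (z + v) - ∑ i, (v i : ℝ) * (H (z + Pi.single i 1) - H z))
        - (H (z + 0) - ∑ i, (((0 : Fin k → ℤ) i : ℤ) : ℝ) * (H (z + Pi.single i 1) - H z)) := by
    simp
    ring
  rw [e4]
  exact hfin

end Vale.Agent.Lib.P249.H68
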